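import Vale.Agent.P319.S2.H920.Spec
import Vale.Agent.P319.SC.Gro

/-! P319, block S2: A1 LOW, A2 THIN. -/

namespace Vale.Agent.P319.S2.H82

open Finset Vale.Agent.P319.SC Vale.Agent.P319.SC.H323
open Vale.Agent.P319.S2.H920

set_option linter.all false

/-- forget the levels above `L` -/
def trunc {V ι : Type} [Fintype V] [DecidableEq V] [DecidableEq ι] {l L : ℕ} (h : L ≤ l)
    (𝒞 : Cfg V ι l) : Cfg V ι L where
  col := 𝒞.col
  dep k hk := 𝒞.dep k (by omega)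
  sub j k hj hk := 𝒞.sub j k (by omega) (by omega)
  ext k hk := 𝒞.ext k (by omega)
  eqv k hk := 𝒞.eqv k (by omega)
  anti2 k hk := 𝒞.anti2 k (by omega)
  anti3 k hk := 𝒞.anti3 k (by omega)
  cyc k hk := 𝒞.cyc k (by omega)

/-- **A1 LOW** -/
theorem low : LowStmt := by
  intro V ι _ _ _ L B l hB hl 𝒢 a ha
  exact hB (trunc hl 𝒢) a ha

/-- **A2 THIN** -/
theorem thin : ThinStmt := by
  intro V ι _ _ _ L B l X ℱ y hBd hLl hl hX hy hXB hY
  have hB1 : Bd V ι (l + 1) B := low V ι L B (l + 1) hBd (by omega)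
  have hB0 : Bd V ι l B := low V ι L B l hBd hLl
  have hYB := hB1 ℱ y hY
  have hsub : ∀ v ∈ X, ℱ.cls (ℱ.c1 v) ⊆ X := by
    intro v hv w hw
    rw [ℱ.mem_cls] at hw
    exact hX v w hw.symm hv
  -- the class of `y` over `v`
  have hval : ∀ v z, ((ℱ.fix v).cls ((ℱ.fix v).c1 z)).card = ℱ.val v (ℱ.c2 v z) := by
    intro v z
    rw [ℱ.fix_c1 (by omega), ℱ.val_eq_fix (by omega)]
  -- the properties of the bad points
  have hbad : ∀ v ∈ X, ((ℱ.fix v).cls ((ℱ.fix v).c1 y)).card = 1 →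
      ℱ.val v (ℱ.c2 v y) = 1 ∧ ℱ.val y (ℱ.c2 y v) = 1 ∧
        (ℱ.cls (ℱ.c1 v)).card = (ℱ.cls (ℱ.c1 y)).card := by
    intro v hv h1
    rw [hval] at h1
    have h2 := ℱ.val_swap (by omega) v y
    rw [h1, mul_one] at h2
    have h3 : ℱ.val y (ℱ.c2 y v) = 1 := by
      have h4 : 0 < ℱ.val y (ℱ.c2 y v) := ℱ.val_pos y v
      by_contra h5
      have h6 : B ≤ ℱ.val y (ℱ.c2 y v) := by
        have := hB0 (ℱ.fix y) v (by rw [hval]; omega)
        rwa [hval] at this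
      have h7 : B * B ≤ (ℱ.cls (ℱ.c1 v)).card := by
        rw [h2]; exact Nat.mul_le_mul hYB h6
      have h8 := card_le_card (hsub v hv)
      omega
    rw [h3, mul_one] at h2
    exact ⟨h1, h3, h2⟩
  -- at most one bad point in every class
  have huniq : ∀ v w, ℱ.c1 v = ℱ.c1 w → ℱ.val v (ℱ.c2 v y) = 1 → ℱ.val y (ℱ.c2 y w) = 1 →
      v = w := by
    intro v w hvw h1 h2
    by_contra hne
    refine Gro.card_ne_one ℱ (by omega) (ρ := ℱ.c1 v) rfl hvw.symm hne ?_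
    rw [Cfg.val, card_eq_one] at h1 h2
    rw [card_eq_one]
    refine ⟨w, ?_⟩
    have hs1 : ∀ z, ℱ.c2 v z = ℱ.c2 v y → z = y := by
      obtain ⟨a, ha⟩ := h1
      intro z hz
      have h3 : z ∈ ({a} : Finset V) := by rw [← ha]; simp [hz]
      have h4 : y ∈ ({a} : Finset V) := by rw [← ha]; simp
      rw [mem_singleton] at h3 h4
      rw [h3, h4]
    have hs2 : ∀ z, ℱ.c2 y z = ℱ.c2 y w → z = w := by
      obtain ⟨a, ha⟩ := h2
      intro z hz
      have h3 : z ∈ ({a} : Finset V) := by rw [← ha]; simp [hz]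
      have h4 : w ∈ ({a} : Finset V) := by rw [← ha]; simp
      rw [mem_singleton] at h3 h4
      rw [h3, h4]
    ext z
    simp only [mem_filter, mem_univ, true_and, mem_singleton]
    constructor
    · intro hz
      obtain ⟨e, he⟩ := ℱ.ext2 (show 3 ≤ l + 1 by omega) hz.symm
      obtain ⟨-, h3, h4⟩ := ℱ.c3_sub (by omega) (he y)
      have h5 := hs1 _ h3.symm
      rw [h5] at h4
      exact hs2 z (ℱ.c2_swap (by omega) h4.symm)
    · rintro rfl; rfl
  set S := X.filter fun v => ((ℱ.fix v).cls ((ℱ.fix v).c1 y)).card = 1 with hS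
  have hS' : ∀ v ∈ S, v ∈ X ∧ ℱ.val v (ℱ.c2 v y) = 1 ∧ ℱ.val y (ℱ.c2 y v) = 1 ∧
      (ℱ.cls (ℱ.c1 v)).card = (ℱ.cls (ℱ.c1 y)).card := by
    intro v hv
    rw [hS, mem_filter] at hv
    exact ⟨hv.1, hbad v hv.1 hv.2⟩
  have hdis : ∀ v ∈ S, ∀ w ∈ S, v ≠ w → Disjoint (ℱ.cls (ℱ.c1 v)) (ℱ.cls (ℱ.c1 w)) := by
    intro v hv w hw hne
    rw [disjoint_left]
    intro a ha hb
    rw [ℱ.mem_cls] at ha hb
    exact hne (huniq v w (ha.symm.trans hb) (hS' v hv).2.1 (hS' w hw).2.2.1)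
  calc S.card * (ℱ.cls (ℱ.c1 y)).card = ∑ v ∈ S, (ℱ.cls (ℱ.c1 v)).card := by
        rw [Finset.sum_congr rfl fun v hv => (hS' v hv).2.2.2, Finset.sum_const, smul_eq_mul]
    _ = (S.biUnion fun v => ℱ.cls (ℱ.c1 v)).card := (card_biUnion hdis).symm
    _ ≤ X.card := by
        refine card_le_card fun a ha => ?_
        rw [mem_biUnion] at ha
        obtain ⟨v, hv, ha⟩ := ha
        exact hsub v (hS' v hv).1 ha

end Vale.Agent.P319.S2.H82
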