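import Vale.Agent.P319.SC.H323.Mix

/-! P319, block S2: two light steps. -/

namespace Vale.Agent.P319.S2.H82

open Finset Matrix Vale.Agent.P319.SC Vale.Agent.P319.SC.H323 Vale.Agent.P319.H924

set_option linter.all false

variable {V ι : Type} [Fintype V] [DecidableEq V] [DecidableEq ι] {m : ℕ}

/-- over a random pair `(a₁, a₂)` of `R`-neighbours of `y` the class of `y` is small -/
theorem two_light (𝒞 : Cfg V ι m) (hm : 3 ≤ m) {D : ℕ} (hD : BigRank 𝒞 D) {y a : V}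
    (h : 𝒞.c1 a = 𝒞.c1 y) :
    ∃ a₁ a₂, 𝒞.c2 y a₁ = 𝒞.c2 y a ∧ 𝒞.c2 y a₂ = 𝒞.c2 y a ∧
      D * ((𝒞.cls (𝒞.c1 y)).card *
        (univ.filter fun z => 𝒞.c2 z a₁ = 𝒞.c2 y a ∧ 𝒞.c2 z a₂ = 𝒞.c2 y a).card) ≤
      (𝒞.cls (𝒞.c1 y)).card ^ 2 + D * 𝒞.val y (𝒞.c2 y a) ^ 2 := by
  set ρ := 𝒞.c1 y with hρ
  set R := 𝒞.c2 y a with hR
  set n := (𝒞.cls ρ).card with hn
  set k := 𝒞.val y R with hk
  have hRm : R ∈ 𝒞.rels ρ ρ := (𝒞.mem_rels _ _ _).2 ⟨y, a, rfl, h, rfl⟩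
  set P : Finset V := univ.filter fun z => 𝒞.c2 y z = R with hP
  have hPk : P.card = k := rfl
  have hk0 : 0 < k := 𝒞.val_pos y a
  have hn0 : 0 < n := 𝒞.cls_pos y
  have hPc : ∀ z ∈ P, 𝒞.c1 z = ρ := by
    intro z hz
    rw [hP, mem_filter] at hz
    rw [(𝒞.c1_of_c2 (by omega) hz.2).2, h]
  -- the number of `z` with `c2 z b = R`
  have hin : ∀ b, 𝒞.c1 b = ρ → (univ.filter fun z => 𝒞.c2 z b = R).card = k := by
    intro b hb
    have h1 : (univ.filter fun z => 𝒞.c2 z b = R) = univ.filter fun z => 𝒞.c2 b z = 𝒞.c2 a y := by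
      ext z
      simp only [mem_filter, mem_univ, true_and]
      rw [hR]
      exact 𝒞.c2_swap_iff (by omega)
    rw [h1]
    have h2 : 𝒞.val b (𝒞.c2 a y) = 𝒞.val y (𝒞.c2 a y) := 𝒞.val_eq (by omega) (by rw [hb]) _
    have h3 := 𝒞.val_flip (by omega) (v := y) (z := a) (by rw [h])
    change 𝒞.val b (𝒞.c2 a y) = k
    rw [h2, h3]
  set u : V → ℝ := fun z => if z ∈ P then 1 else 0 with hu
  have huu : u ⬝ᵥ u = k := by
    simp only [dotProduct, hu, mul_ite, mul_one, mul_zero, ite_self]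
    rw [Finset.sum_ite_mem]
    simp [hPk]
  have key := red_bound 𝒞 hm hD (v := y) rfl hRm u
  rw [huu, ← hk, ← hρ, ← hn] at key
  set w : V → ℕ := fun z => (P.filter fun b => 𝒞.c2 z b = R).card with hw
  have hval : ∀ v ∈ 𝒞.cls ρ, (red 𝒞 ρ R y *ᵥ u) v = (w v : ℝ) - (k : ℝ) / n * k := by
    intro v hv
    rw [𝒞.mem_cls] at hv
    simp only [Matrix.mulVec, dotProduct, red, Matrix.sub_apply, Matrix.smul_apply, smul_eq_mul,
      sub_mul, Finset.sum_sub_distrib]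
    congr 1
    · simp only [H924.ind_apply, hu, mul_ite, mul_one, mul_zero]
      rw [Finset.sum_ite_mem, Finset.univ_inter, Finset.sum_ite, Finset.sum_const_zero, add_zero,
        Finset.sum_const, nsmul_eq_mul, mul_one]
    · simp only [hu, mul_ite, mul_one, mul_zero]
      rw [Finset.sum_ite_mem, Finset.univ_inter]
      have : ∀ z ∈ P, (((univ.filter fun z => 𝒞.c2 y z = R).card : ℝ) / (𝒞.cls ρ).card) *
          jay 𝒞 ρ v z = (k : ℝ) / n := by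
        intro z hz
        rw [jay_apply, if_pos ⟨hv, hPc z hz⟩, mul_one]
        rfl
      rw [Finset.sum_congr rfl this, Finset.sum_const, nsmul_eq_mul, hPk]
      ring
  -- the sum of `w`
  have hsw : ∑ z ∈ 𝒞.cls ρ, w z = k * k := by
    have h1 : ∑ z ∈ 𝒞.cls ρ, w z = ∑ b ∈ P, ((𝒞.cls ρ).filter fun z => 𝒞.c2 z b = R).card := by
      simp only [hw, card_filter]
      exact Finset.sum_comm
    rw [h1]
    have h2 : ∀ b ∈ P, ((𝒞.cls ρ).filter fun z => 𝒞.c2 z b = R).card = k := by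
      intro b hb
      rw [← hin b (hPc b hb)]
      congr 1
      ext z
      simp only [mem_filter, mem_univ, true_and, 𝒞.mem_cls, and_iff_right_iff_imp]
      intro hz
      exact (𝒞.c1_of_c2 (by omega) hz).1
    rw [Finset.sum_congr rfl h2, Finset.sum_const, hPk, smul_eq_mul]
  have hlow : ∑ z ∈ 𝒞.cls ρ, ((w z : ℝ) - (k : ℝ) / n * k) ^ 2 ≤
      red 𝒞 ρ R y *ᵥ u ⬝ᵥ red 𝒞 ρ R y *ᵥ u := by
    have h1 : ∑ z ∈ 𝒞.cls ρ, ((w z : ℝ) - (k : ℝ) / n * k) ^ 2 =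
        ∑ z ∈ 𝒞.cls ρ, (red 𝒞 ρ R y *ᵥ u) z * (red 𝒞 ρ R y *ᵥ u) z :=
      Finset.sum_congr rfl fun z hz => by rw [hval z hz]; ring
    rw [h1]
    exact Finset.sum_le_sum_of_subset_of_nonneg (Finset.subset_univ _)
      fun i _ _ => mul_self_nonneg _
  have hsq : ∑ z ∈ 𝒞.cls ρ, ((w z : ℝ) - (k : ℝ) / n * k) ^ 2 =
      ∑ z ∈ 𝒞.cls ρ, (w z : ℝ) ^ 2 - (k : ℝ) ^ 4 / n := by
    have h1 : ∀ z, ((w z : ℝ) - (k : ℝ) / n * k) ^ 2 =
        (w z : ℝ) ^ 2 - 2 * ((k : ℝ) / n * k) * w z + ((k : ℝ) / n * k) ^ 2 := fun z => by ring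
    simp only [h1]
    rw [Finset.sum_add_distrib, Finset.sum_sub_distrib, ← Finset.mul_sum, Finset.sum_const,
      nsmul_eq_mul, ← hn]
    have h2 : ∑ z ∈ 𝒞.cls ρ, (w z : ℝ) = k * k := by exact_mod_cast hsw
    rw [h2]
    have : (n : ℝ) ≠ 0 := by exact_mod_cast hn0.ne'
    field_simp
    ring
  -- the double count
  have hdc : ∑ z ∈ 𝒞.cls ρ, (w z) ^ 2 = ∑ q ∈ P ×ˢ P,
      (univ.filter fun z => 𝒞.c2 z q.1 = R ∧ 𝒞.c2 z q.2 = R).card := by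
    have h1 : ∀ z ∈ 𝒞.cls ρ, (w z) ^ 2 =
        ∑ q ∈ P ×ˢ P, if 𝒞.c2 z q.1 = R ∧ 𝒞.c2 z q.2 = R then 1 else 0 := by
      intro z _
      rw [sq, hw, ← card_product, ← card_filter]
      congr 1
      ext q
      simp only [mem_product, mem_filter]
      tauto
    rw [Finset.sum_congr rfl h1, Finset.sum_comm]
    refine Finset.sum_congr rfl fun q hq => ?_
    rw [← card_filter]
    congr 1
    ext z
    simp only [mem_filter, mem_univ, true_and, 𝒞.mem_cls, and_iff_right_iff_imp]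
    intro hz
    exact (𝒞.c1_of_c2 (by omega) hz.1).1
  by_contra hcon
  push Not at hcon
  have hbig : ∀ q ∈ P ×ˢ P, n ^ 2 + D * k ^ 2 <
      D * (n * (univ.filter fun z => 𝒞.c2 z q.1 = R ∧ 𝒞.c2 z q.2 = R).card) := by
    intro q hq
    rw [mem_product] at hq
    exact hcon q.1 q.2 (mem_filter.1 hq.1).2 (mem_filter.1 hq.2).2
  have hPne : (P ×ˢ P).Nonempty := by
    rw [← card_pos, card_product, hPk]
    exact Nat.mul_pos hk0 hk0
  have h1 : ∑ q ∈ P ×ˢ P, (n ^ 2 + D * k ^ 2) <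
      ∑ q ∈ P ×ˢ P, D * (n * (univ.filter fun z => 𝒞.c2 z q.1 = R ∧ 𝒞.c2 z q.2 = R).card) :=
    Finset.sum_lt_sum_of_nonempty hPne hbig
  rw [← Finset.mul_sum, ← Finset.mul_sum, ← hdc, Finset.sum_const, card_product, hPk,
    smul_eq_mul] at h1
  have h2 : ((k : ℝ) * k) * ((n : ℝ) ^ 2 + D * k ^ 2) <
      D * (n * ∑ z ∈ 𝒞.cls ρ, (w z : ℝ) ^ 2) := by exact_mod_cast h1
  have h3 : (D : ℝ) * (∑ z ∈ 𝒞.cls ρ, (w z : ℝ) ^ 2 - (k : ℝ) ^ 4 / n) ≤ n * k * k := by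
    rw [← hsq]
    exact (mul_le_mul_of_nonneg_left hlow (Nat.cast_nonneg _)).trans key
  have hn' : (0 : ℝ) < n := by exact_mod_cast hn0
  have h4 : (D : ℝ) * (n * ∑ z ∈ 𝒞.cls ρ, (w z : ℝ) ^ 2) ≤ n * (n * k * k) + D * k ^ 4 := by
    have h5 := mul_le_mul_of_nonneg_left h3 hn'.le
    have h6 : (n : ℝ) * (D * (∑ z ∈ 𝒞.cls ρ, (w z : ℝ) ^ 2 - (k : ℝ) ^ 4 / n)) =
        D * (n * ∑ z ∈ 𝒞.cls ρ, (w z : ℝ) ^ 2) - D * k ^ 4 := by
      field_simp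
    rw [h6] at h5
    linarith
  nlinarith

end Vale.Agent.P319.S2.H82
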