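import Vale.Agent.P319.S2.H920.Spec

/-! P319, block S2: A6 UPMIX, the upper version of `bad_count`. -/

namespace Vale.Agent.P319.S2.H82

open Finset Matrix Vale.Agent.P319.SC Vale.Agent.P319.SC.H323 Vale.Agent.P319.H924
open Vale.Agent.P319.S2.H920

set_option linter.all false

theorem up_mix {V ι : Type} [Fintype V] [DecidableEq V] [DecidableEq ι] {m : ℕ}
    (𝒞 : Cfg V ι m) (hm : 3 ≤ m) {D : ℕ} (hD : BigRank 𝒞 D) {ρ T : ι} {v₀ : V}
    (hv₀ : 𝒞.c1 v₀ = ρ) (hT : T ∈ 𝒞.rels ρ ρ) {Q : Finset V} (hQ : Q ⊆ 𝒞.cls ρ) :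
    ((𝒞.cls ρ).filter fun v => 2 * (𝒞.val v₀ T * Q.card) <
      (𝒞.cls ρ).card * (Q.filter fun z => 𝒞.c2 v z = T).card).card *
        (𝒞.val v₀ T * Q.card * D) ≤ (𝒞.cls ρ).card ^ 3 := by
  set n := (𝒞.cls ρ).card with hn
  set k := 𝒞.val v₀ T with hk
  set B := (𝒞.cls ρ).filter fun v => 2 * (k * Q.card) <
      n * (Q.filter fun z => 𝒞.c2 v z = T).card with hB
  have hn0 : 0 < n := card_cls_pos 𝒞 hv₀
  have hn0' : (0 : ℝ) < n := by exact_mod_cast hn0
  rcases Nat.eq_zero_or_pos (k * Q.card) with h0 | h0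
  · rw [h0]; simp
  have h0' : (0 : ℝ) < (k : ℝ) * Q.card := by exact_mod_cast h0
  set u : V → ℝ := fun z => if z ∈ Q then 1 else 0 with hu
  have huu : u ⬝ᵥ u = Q.card := by
    simp only [dotProduct, hu, mul_ite, mul_one, mul_zero, ite_self]
    rw [Finset.sum_ite_mem]
    simp
  have key := red_bound 𝒞 hm hD hv₀ hT u
  rw [huu, ← hk, ← hn] at key
  -- the values at the points of the class
  have hval : ∀ v ∈ 𝒞.cls ρ, (red 𝒞 ρ T v₀ *ᵥ u) v =
      ((Q.filter fun z => 𝒞.c2 v z = T).card : ℝ) - (k : ℝ) / n * Q.card := by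
    intro v hv
    rw [𝒞.mem_cls] at hv
    simp only [Matrix.mulVec, dotProduct, red, Matrix.sub_apply, Matrix.smul_apply, smul_eq_mul,
      sub_mul, Finset.sum_sub_distrib]
    congr 1
    · simp only [H924.ind_apply, hu, mul_ite, mul_one, mul_zero]
      rw [Finset.sum_ite_mem, Finset.univ_inter, Finset.sum_ite, Finset.sum_const_zero, add_zero,
        Finset.sum_const, nsmul_eq_mul, mul_one]
    · simp only [hu, mul_ite, mul_one, mul_zero]
      rw [Finset.sum_ite_mem, Finset.univ_inter]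
      have : ∀ z ∈ Q, (((univ.filter fun z => 𝒞.c2 v₀ z = T).card : ℝ) / (𝒞.cls ρ).card) *
          jay 𝒞 ρ v z = (k : ℝ) / n := by
        intro z hz
        have hz' := (𝒞.mem_cls ρ z).1 (hQ hz)
        rw [jay_apply, if_pos ⟨hv, hz'⟩, mul_one]
        rfl
      rw [Finset.sum_congr rfl this, Finset.sum_const, nsmul_eq_mul]
      ring
  have hlow : (B.card : ℝ) * ((k : ℝ) * Q.card / n) ^ 2 ≤
      red 𝒞 ρ T v₀ *ᵥ u ⬝ᵥ red 𝒞 ρ T v₀ *ᵥ u := by
    have h1 : (B.card : ℝ) * ((k : ℝ) * Q.card / n) ^ 2 ≤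
        ∑ v ∈ B, (red 𝒞 ρ T v₀ *ᵥ u) v * (red 𝒞 ρ T v₀ *ᵥ u) v := by
      rw [← nsmul_eq_mul]
      refine Finset.card_nsmul_le_sum _ _ _ fun v hv => ?_
      rw [hB, mem_filter] at hv
      rw [hval v hv.1]
      have h2 : (2 : ℝ) * (k * Q.card) < n * ((Q.filter fun z => 𝒞.c2 v z = T).card : ℝ) := by
        exact_mod_cast hv.2
      have h3 : 2 * ((k : ℝ) * Q.card / n) < ((Q.filter fun z => 𝒞.c2 v z = T).card : ℝ) := by
        rw [← mul_div_assoc, div_lt_iff₀ hn0']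
        linarith
      have h4 : (k : ℝ) / n * Q.card = (k : ℝ) * Q.card / n := by ring
      rw [h4]
      have h5 : 0 ≤ (k : ℝ) * Q.card / n := by positivity
      nlinarith
    refine h1.trans ?_
    exact Finset.sum_le_sum_of_subset_of_nonneg (Finset.subset_univ _)
      fun i _ _ => mul_self_nonneg _
  have h5 : (D : ℝ) * ((B.card : ℝ) * ((k : ℝ) * Q.card / n) ^ 2) ≤ n * k * Q.card :=
    (mul_le_mul_of_nonneg_left hlow (Nat.cast_nonneg _)).trans key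
  have h6 : (B.card : ℝ) * (k * Q.card * D) ≤ (n : ℝ) ^ 3 := by
    have h7 : (D : ℝ) * ((B.card : ℝ) * ((k : ℝ) * Q.card / n) ^ 2) =
        ((B.card : ℝ) * (k * Q.card * D)) * ((k : ℝ) * Q.card) / n ^ 2 := by
      field_simp
    rw [h7, div_le_iff₀ (by positivity)] at h5
    have h8 : (n : ℝ) * k * Q.card * n ^ 2 = (n : ℝ) ^ 3 * ((k : ℝ) * Q.card) := by
      ring
    rw [h8] at h5
    exact le_of_mul_le_mul_right h5 h0'
  exact_mod_cast h6

/-- **A6 UPMIX** -/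
theorem upMix : UpMixStmt := by
  intro V ι _ _ _ l D 𝒟 ρ T v₀ Q hl hD hv hT hQ
  refine (up_mix 𝒟 hl hD hv hT hQ).trans ?_
  omega

end Vale.Agent.P319.S2.H82
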